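import Vale.Agent.P039.Bz.Stmt
import Vale.Agent.P039.Bn.L2.Defs
import Vale.Agent.P039.Bar.H307.T0

/-! Rows L2 + L3 of P039-B: the planar input of the sign argument, from the two sides of an
alternating cycle (T1) and the count of third corners (T2). -/

set_option linter.unusedSectionVars false

namespace Vale.Agent.P039.H912

open Vale.Agent.P039.Bn Vale.Agent.P039.Bz Finset

theorem prod_eps_neg {α : Type*} [DecidableEq α] (S : Finset α) (d : α → Fin 3)
    (hd : ∀ a ∈ S, d a ≠ 0) : ∏ a ∈ S, eps (d a) = (-1) ^ (S.filter fun a => d a = 2).card := by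
  rw [← Finset.prod_const, Finset.prod_filter]
  refine Finset.prod_congr rfl fun a ha => ?_
  have h := hd a ha
  revert h
  generalize d a = x
  revert x
  decide

section
variable {B W V : Type} [Fintype B] [Fintype W] [Fintype V] [DecidableEq B] [DecidableEq W]
  [DecidableEq V] (M : PMap B W V) (b₀ : B)

theorem fo_some {b : BOff b₀} {j : Fin 3} {v : VOff M b₀} (h : Fo M b₀ b j = some v) :
    M.c j b.1 = v.1 := by
  unfold Fo at h
  split_ifs at h with hj
  exact congrArg Subtype.val (Option.some.inj h)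

/-- extension of a choice of corners to the root -/
def ext (f : BOff b₀ → Fin 3) (b : B) : Fin 3 := if h : b ≠ b₀ then f ⟨b, h⟩ else 0

theorem ext_val (f : BOff b₀ → Fin 3) (b : BOff b₀) : ext b₀ f b.1 = f b := by
  unfold ext
  rw [dif_pos b.2]

/-- extension of a map to the root -/
def extm (s : BOff b₀ → BOff b₀) (b : B) : B := if h : b ≠ b₀ then (s ⟨b, h⟩).1 else b₀

theorem extm_val (s : BOff b₀ → BOff b₀) (b : BOff b₀) : extm b₀ s b.1 = (s b).1 := by
  unfold extm
  rw [dif_pos b.2]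

theorem cyc_of (hM : M.Sph) (hT1 : M.T1) (hT2 : M.T2) : Cyc (Fo M b₀) := by
  classical
  -- the function on the corners
  obtain ⟨u, hu⟩ := Bar.H307.exists_u (K := ℚ) (M := M) hM.conn
    (fun w => if w = M.e 0 b₀ then (Fintype.card W : ℚ) - 1 else -1) (by
      rw [Finset.sum_ite, Finset.sum_const, Finset.sum_const, Finset.filter_eq',
        if_pos (Finset.mem_univ _), Finset.card_singleton, Finset.filter_ne',
        Finset.card_erase_of_mem (Finset.mem_univ _), Finset.card_univ]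
      have h1 : 1 ≤ Fintype.card W := Fintype.card_pos_iff.2 ⟨M.e 0 b₀⟩
      simp only [nsmul_eq_mul, Nat.cast_one, one_mul]
      push_cast [Nat.cast_sub h1]
      ring)
  refine ⟨fun b j => ((u j b.1 : ℚ) : ℝ), ?_⟩
  intro f g φ ψ hφ hψ hd C b₁ hC
  set σ : Equiv.Perm (BOff b₀) := φ.trans ψ.symm with hσ
  set S : Finset B := C.map (Function.Embedding.subtype _) with hS
  have hmS : ∀ b : BOff b₀, b.1 ∈ S ↔ b ∈ C := by
    intro b
    rw [hS, Finset.mem_map]
    constructor
    · rintro ⟨a, ha, hab⟩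
      have : a = b := Subtype.ext hab
      rw [← this]; exact ha
    · intro h
      exact ⟨b, h, rfl⟩
  have hS0 : ∀ b ∈ S, ∃ h : b ≠ b₀, (⟨b, h⟩ : BOff b₀) ∈ C := by
    intro b hb
    rw [hS, Finset.mem_map] at hb
    obtain ⟨a, ha, rfl⟩ := hb
    exact ⟨a.2, ha⟩
  have hcf : ∀ b : BOff b₀, M.c (f b) b.1 = (φ b).1 := fun b => fo_some M b₀ (hφ b)
  have hcg : ∀ b : BOff b₀, M.c (g b) b.1 = (ψ b).1 := fun b => fo_some M b₀ (hψ b)
  have hσC : ∀ b, b ∈ C → σ b ∈ C := by
    intro b hb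
    rw [hC] at hb ⊢
    exact Equiv.Perm.sameCycle_apply_right.2 hb
  have hψσ : ∀ b, ψ (σ b) = φ b := by
    intro b
    rw [hσ, Equiv.trans_apply, Equiv.apply_symm_apply]
  have hAlt : M.IsAlt (ext b₀ f) (ext b₀ g) S (extm b₀ σ) := by
    refine ⟨?_, ?_, ?_, ?_, ?_, ?_, ?_⟩
    · intro b hb
      obtain ⟨h, h'⟩ := hS0 b hb
      rw [ext_val b₀ f ⟨b, h⟩, ext_val b₀ g ⟨b, h⟩]
      exact hd _
    · refine ⟨b₁.1, (hmS b₁).2 ?_⟩
      rw [hC]
    · intro b hb
      obtain ⟨h, h'⟩ := hS0 b hb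
      rw [extm_val b₀ σ ⟨b, h⟩, hmS]
      exact hσC _ h'
    · intro b hb
      obtain ⟨h, h'⟩ := hS0 b hb
      rw [extm_val b₀ σ ⟨b, h⟩, ext_val b₀ f ⟨b, h⟩, ext_val b₀ g]
      rw [hcf ⟨b, h⟩, hcg, hψσ]
    · intro b hb b' hb' he
      obtain ⟨h, h1⟩ := hS0 b hb
      obtain ⟨h', h1'⟩ := hS0 b' hb'
      rw [ext_val b₀ g ⟨b, h⟩, ext_val b₀ g ⟨b', h'⟩, hcg ⟨b, h⟩, hcg ⟨b', h'⟩] at he
      have := ψ.injective (Subtype.ext he)
      exact congrArg Subtype.val this
    · intro b hb b' hb' he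
      obtain ⟨h, h1⟩ := hS0 b hb
      obtain ⟨h', h1'⟩ := hS0 b' hb'
      rw [extm_val b₀ σ ⟨b, h⟩, extm_val b₀ σ ⟨b', h'⟩] at he
      have := σ.injective (Subtype.ext he)
      exact congrArg Subtype.val this
    · rintro X ⟨b, hb, hbX⟩ hcl b' hb'
      obtain ⟨h, h1⟩ := hS0 b hb
      obtain ⟨h', h1'⟩ := hS0 b' hb'
      rw [hC] at h1 h1'
      have h2 : σ.SameCycle ⟨b, h⟩ ⟨b', h'⟩ := h1.symm.trans h1'
      obtain ⟨n, -, hn⟩ := h2.exists_pow_eq'
      have key : ∀ n : ℕ, ((σ ^ n) ⟨b, h⟩).1 ∈ X ∧ (σ ^ n) ⟨b, h⟩ ∈ C := by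
        intro n
        induction n with
        | zero =>
          refine ⟨hbX, ?_⟩
          rw [hC]; exact h1
        | succ n ih =>
          rw [pow_succ', Equiv.Perm.mul_apply]
          refine ⟨?_, hσC _ ih.2⟩
          have := hcl _ ((hmS _).2 ih.2) ih.1
          rwa [extm_val] at this
      have := (key n).1
      rw [hn] at this
      exact this
  have hMat : M.IsMatch b₀ (ext b₀ g) := by
    refine ⟨?_, ?_, ?_⟩
    · intro b b' h h' he
      rw [ext_val b₀ g ⟨b, h⟩, ext_val b₀ g ⟨b', h'⟩, hcg ⟨b, h⟩, hcg ⟨b', h'⟩] at he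
      have := ψ.injective (Subtype.ext he)
      exact congrArg Subtype.val this
    · intro v hv
      refine ⟨(ψ.symm ⟨v, hv⟩).1, (ψ.symm ⟨v, hv⟩).2, ?_⟩
      rw [ext_val, hcg, Equiv.apply_symm_apply]
    · intro b h j
      rw [ext_val b₀ g ⟨b, h⟩, hcg ⟨b, h⟩]
      exact fun he => (ψ ⟨b, h⟩).2 j he.symm
  have hb0 : b₀ ∉ S := by
    intro h
    obtain ⟨h, -⟩ := hS0 _ h
    exact h rfl
  obtain ⟨s, I, hs, hI, hI0, hcyc⟩ := hT1 hM _ _ S _ b₀ hAlt hb0
  have hcard := hT2 hM _ _ S _ b₀ hAlt hb0 hMat s I hs hI hI0 hcyc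
  set m := (S.filter fun b => M.e (ext b₀ f b) b ∈ I).card with hm
  have hCS : S.card = C.card := Finset.card_map _
  -- the values of the cycle
  have hval : ∀ b ∈ C, PMap.cyc (ext b₀ f) (ext b₀ g) S b.1 (f b) = 1 ∧
      PMap.cyc (ext b₀ f) (ext b₀ g) S b.1 (g b) = -1 := by
    intro b hb
    have h := hd b
    have h0 : ∀ j, PMap.cyc (ext b₀ f) (ext b₀ g) S b.1 j =
        (if j = f b then 1 else 0) - (if j = g b then 1 else 0) := by
      intro j
      unfold PMap.cyc
      rw [if_pos ((hmS b).2 hb), ext_val, ext_val]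
    rw [h0, h0]
    constructor
    · rw [if_pos rfl, if_neg h]; norm_num
    · rw [if_neg (Ne.symm h), if_pos rfl]; norm_num
  -- the third corner
  have hthird : ∀ b ∈ C, (g b - f b = 2 ↔ (s = 1 ∧ M.e (f b) b.1 ∉ I ∨
      s = -1 ∧ M.e (f b) b.1 ∈ I)) := by
    intro b hb
    obtain ⟨h1, h2⟩ := hval b hb
    rw [hcyc] at h1 h2
    have hne := hd b
    rcases fcase (g b) (f b) with h | h | h
    · exact absurd h.symm hne
    · rw [h, f11, f12] at h2
      rw [h, add_sub_cancel_left]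
      rcases hs with rfl | rfl
      · by_cases h3 : M.e (f b) b.1 ∈ I <;> by_cases h4 : M.e (f b + 1) b.1 ∈ I <;>
          by_cases h5 : M.e (f b + 2) b.1 ∈ I <;> simp [h3, h4, h5] at h1 h2 ⊢ <;>
          first | done | (norm_num; done) | (exfalso; norm_num at h1; done)
      · by_cases h3 : M.e (f b) b.1 ∈ I <;> by_cases h4 : M.e (f b + 1) b.1 ∈ I <;>
          by_cases h5 : M.e (f b + 2) b.1 ∈ I <;> simp [h3, h4, h5] at h1 h2 ⊢ <;>
          first | done | (norm_num; done) | (exfalso; norm_num at h1; done)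
    · rw [h, f21, f22] at h2
      rw [h, add_sub_cancel_left]
      rcases hs with rfl | rfl
      · by_cases h3 : M.e (f b) b.1 ∈ I <;> by_cases h4 : M.e (f b + 1) b.1 ∈ I <;>
          by_cases h5 : M.e (f b + 2) b.1 ∈ I <;> simp [h3, h4, h5] at h1 h2 ⊢ <;>
          first | done | (norm_num; done) | (exfalso; norm_num at h1; done)
      · by_cases h3 : M.e (f b) b.1 ∈ I <;> by_cases h4 : M.e (f b + 1) b.1 ∈ I <;>
          by_cases h5 : M.e (f b + 2) b.1 ∈ I <;> simp [h3, h4, h5] at h1 h2 ⊢ <;>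
          first | done | (norm_num; done) | (exfalso; norm_num at h1; done)
  have hmC : m = (C.filter fun b => M.e (f b) b.1 ∈ I).card := by
    rw [hm, hS, Finset.filter_map, Finset.card_map]
    congr 1
    refine Finset.filter_congr fun b _ => ?_
    simp only [Function.comp_apply, Function.Embedding.subtype_apply, ext_val]
  have hsplit := Finset.card_filter_add_card_filter_not (s := C) (fun b => M.e (f b) b.1 ∈ I)
  have hprod : ∏ b ∈ C, eps (g b - f b) = if s = 1 then (-1) ^ (m + 3) else (-1) ^ m := by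
    rw [prod_eps_neg C (fun b => g b - f b) (fun b _ h => hd b (sub_eq_zero.1 h).symm)]
    rcases hs with rfl | rfl
    · rw [if_pos rfl]
      congr 1
      have : (C.filter fun b => g b - f b = 2) = C.filter fun b => ¬ M.e (f b) b.1 ∈ I := by
        refine Finset.filter_congr fun b hb => ?_
        rw [hthird b hb]
        norm_num
      rw [this]
      omega
    · rw [if_neg (by norm_num)]
      congr 1
      have : (C.filter fun b => g b - f b = 2) = C.filter fun b => M.e (f b) b.1 ∈ I := by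
        refine Finset.filter_congr fun b hb => ?_
        rw [hthird b hb]
        norm_num
      rw [this, hmC]
  have hsum : ∑ b ∈ C, (u (f b) b.1 - u (g b) b.1) = - s * (I.card : ℚ) := by
    have h1 := Bar.H307.stokes (K := ℚ) (M := M)
      (fun j b => PMap.cyc (ext b₀ f) (ext b₀ g) S b j)
      (fun w => s * (if w ∈ I then 1 else 0)) (by
        intro j b
        rw [hcyc, mul_sub]) u
    have h2 : ∑ j, ∑ b, PMap.cyc (ext b₀ f) (ext b₀ g) S b j * u j b =
        ∑ b ∈ C, (u (f b) b.1 - u (g b) b.1) := by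
      rw [Finset.sum_comm]
      have h3 : ∀ b, ∑ j, PMap.cyc (ext b₀ f) (ext b₀ g) S b j * u j b =
          if b ∈ S then u (ext b₀ f b) b - u (ext b₀ g b) b else 0 := by
        intro b
        unfold PMap.cyc
        split_ifs with h
        · simp [sub_mul, Finset.sum_sub_distrib]
        · simp
      rw [Finset.sum_congr rfl fun b _ => h3 b, Finset.sum_ite_mem, Finset.univ_inter, hS,
        Finset.sum_map]
      refine Finset.sum_congr rfl fun b _ => ?_
      simp only [Function.Embedding.subtype_apply, ext_val]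
    rw [← h2, h1]
    have h4 : ∀ w, s * (if w ∈ I then (1 : ℚ) else 0) *
        ∑ i, (u (i + 2) ((M.e i).symm w) - u (i + 1) ((M.e i).symm w)) =
        if w ∈ I then - s else 0 := by
      intro w
      rw [hu w]
      split_ifs with h5 h6
      · exfalso
        rw [h6] at h5
        exact hI0 0 h5
      · ring
      · ring
      · ring
    rw [Finset.sum_congr rfl fun w _ => h4 w, Finset.sum_ite_mem, Finset.univ_inter,
      Finset.sum_const, nsmul_eq_mul]
    ring
  refine ⟨m, by rw [← hCS, hcard], ?_⟩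
  have hIpos : (0 : ℚ) < I.card := by
    rw [Nat.cast_pos]; exact hI.card_pos
  have hfin : (0 : ℚ) < (-1 : ℚ) ^ m * ((∏ b ∈ C, eps (g b - f b) : ℤ) : ℚ) *
      ∑ b ∈ C, (u (f b) b.1 - u (g b) b.1) := by
    rw [hprod, hsum]
    have hsq : (-1 : ℚ) ^ m * (-1 : ℚ) ^ m = 1 := by
      rw [← mul_pow]; norm_num
    rcases hs with rfl | rfl
    · rw [if_pos rfl]
      push_cast
      have : (-1 : ℚ) ^ m * (-1) ^ (m + 3) * (-1 * (I.card : ℚ)) =
          ((-1 : ℚ) ^ m * (-1 : ℚ) ^ m) * I.card := by ring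
      rw [this, hsq, one_mul]
      exact hIpos
    · rw [if_neg (by norm_num)]
      push_cast
      have : (-1 : ℚ) ^ m * (-1) ^ m * (- -1 * (I.card : ℚ)) =
          ((-1 : ℚ) ^ m * (-1 : ℚ) ^ m) * I.card := by ring
      rw [this, hsq, one_mul]
      exact hIpos
  have := (Rat.cast_pos (K := ℝ)).2 hfin
  push_cast at this ⊢
  exact this

end

/-- The planar input from T1 and T2. -/
theorem cycStmt_of
    (h1 : ∀ (B W V : Type) [Fintype B] [Fintype W] [Fintype V] [DecidableEq B] [DecidableEq W]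
      [DecidableEq V] (M : PMap B W V), M.T1)
    (h2 : ∀ (B W V : Type) [Fintype B] [Fintype W] [Fintype V] [DecidableEq B] [DecidableEq W]
      [DecidableEq V] (M : PMap B W V), M.T2) : CycStmt := by
  intro B W V _ _ _ _ M hM b₀
  classical
  exact cyc_of M b₀ hM (h1 B W V M) (h2 B W V M)

end Vale.Agent.P039.H912
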