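import Vale.Agent.P039.Bz.Conv
import Vale.Agent.P039.H331.Cut
import Vale.Agent.P039.H328.NfAdd

/-! The gluing row (step 6) in the form `GlueStmt`, from the web forms. -/

set_option linter.unusedSectionVars false

namespace Vale.Agent.P039.H912

open Vale.Agent.P039.Bn Vale.Agent.P039.Bz Vale.Agent.P039.Sk

theorem connC_of_c3 {B W : Type} {X : Web B W} (h3 : H331.C3 X) : B893.ConnC X := by
  intro S T h hT w
  by_contra hw
  have h4 := h3 S T (Or.inr hT) (Or.inr ⟨w, hw⟩)
  have h0 : H331.cutc X S T = 0 := by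
    unfold H331.cutc
    have : {p : Fin 3 × B | ¬ (S p.2 ↔ T (X.e p.1 p.2))} = ∅ := by
      ext p
      simp [h p.1 p.2]
    rw [this, Set.ncard_empty]
  omega

theorem nf_le' {B W : Type} [Finite B] [Finite W] {X : Web B W} (h3 : H331.C3 X) :
    B893.nf X ≤ Nat.card B + 2 := by
  have _ := Fintype.ofFinite B
  have _ := Fintype.ofFinite W
  rw [Nat.card_eq_fintype_card]
  exact B893.nf_le (connC_of_c3 h3)

section
variable {B W V : Type} [Fintype B] [Fintype W] (M : PMap B W V)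

theorem cutc_web (S : Set B) (T : Set W) :
    Bz.cutc M S T = H331.cutc (toWeb M) (fun b => b ∈ S) (fun w => w ∈ T) := by
  rw [cutc_eq_ncard]
  rfl

theorem cutc_empty (S : Set B) (T : Set W) (h : S = ∅) : Bz.cutc M S T = 3 * T.ncard := by
  rw [cutc_eq_ncard]
  have h1 : {p : Fin 3 × B | ¬ (p.2 ∈ S ↔ M.e p.1 p.2 ∈ T)}.ncard =
      ((Set.univ : Set (Fin 3)) ×ˢ T).ncard := by
    refine Set.ncard_congr (fun p _ => (p.1, M.e p.1 p.2)) ?_ ?_ ?_
    · intro p hp
      rw [Set.mem_ofPred_eq, h] at hp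
      simp only [Set.mem_empty_iff_false, false_iff, not_not] at hp
      exact ⟨Set.mem_univ _, hp⟩
    · rintro ⟨i, b⟩ ⟨j, b'⟩ _ _ he
      rw [Prod.mk.injEq] at he
      obtain ⟨h1, h2⟩ := he
      simp only at h1 h2
      subst h1
      rw [(M.e i).injective h2]
    · rintro ⟨i, w⟩ ⟨_, hw⟩
      refine ⟨(i, (M.e i).symm w), ?_, ?_⟩
      · rw [Set.mem_ofPred_eq, h]
        simp only [Set.mem_empty_iff_false, false_iff, not_not, Equiv.apply_symm_apply]
        exact hw
      · simp only [Equiv.apply_symm_apply]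
  rw [h1, Set.ncard_prod, Set.ncard_univ, Nat.card_eq_fintype_card, Fintype.card_fin]

theorem cutc_empty' (S : Set B) (T : Set W) (h : T = ∅) : Bz.cutc M S T = 3 * S.ncard := by
  rw [cutc_eq_ncard]
  have h1 : {p : Fin 3 × B | ¬ (p.2 ∈ S ↔ M.e p.1 p.2 ∈ T)} =
      ((Set.univ : Set (Fin 3)) ×ˢ S) := by
    ext p
    rw [Set.mem_ofPred_eq, h]
    simp
  rw [h1, Set.ncard_prod, Set.ncard_univ, Nat.card_eq_fintype_card, Fintype.card_fin]

theorem cutc_compl (S : Set B) (T : Set W) : Bz.cutc M Sᶜ Tᶜ = Bz.cutc M S T := by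
  rw [cutc_eq_ncard, cutc_eq_ncard]
  congr 1
  ext p
  simp only [Set.mem_compl_iff, Set.mem_ofPred_eq]
  exact not_congr not_iff_not

theorem c3_of_web (h : H331.C3 (toWeb M)) : Bz.C3 M := by
  intro S T h1 h2
  rw [cutc_web]
  exact h _ _ h1 h2

theorem c3_to_web (h : Bz.C3 M) : H331.C3 (toWeb M) := by
  intro S T h1 h2
  have := h {b | S b} {w | T w} h1 h2
  rw [cutc_web] at this
  exact this

theorem c4_of_web (h : H331.C4 (toWeb M)) : Bz.C4 M := by
  intro S T hc
  by_cases h1 : S = ∅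
  · rw [cutc_empty M S T h1] at hc
    left
    rw [h1, Set.ncard_empty]
    omega
  by_cases h2 : T = ∅
  · rw [cutc_empty' M S T h2] at hc
    left
    rw [h2, Set.ncard_empty]
    omega
  by_cases h3 : Sᶜ = ∅
  · rw [← cutc_compl, cutc_empty M _ _ h3] at hc
    right
    rw [h3, Set.ncard_empty]
    omega
  by_cases h4 : Tᶜ = ∅
  · rw [← cutc_compl, cutc_empty' M _ _ h4] at hc
    right
    rw [h4, Set.ncard_empty]
    omega
  exfalso
  have h5 := h (fun b => b ∈ S) (fun w => w ∈ T) (Set.nonempty_iff_ne_empty.2 h1)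
    (Set.nonempty_iff_ne_empty.2 h2) (Set.nonempty_iff_ne_empty.2 h3)
    (Set.nonempty_iff_ne_empty.2 h4)
  rw [← cutc_web] at h5
  omega

theorem conn_of_web (h : H331.C3 (toWeb M)) : M.Conn := by
  refine conn_of_cut M fun S T hST hne b => ?_
  have := (cut_conn_of_c3 M (c3_of_web M h) S T hST (Or.inl hne)).1
  rw [this]
  exact Set.mem_univ _

end

/-- The gluing row. -/
theorem glueStmt : GlueStmt := by
  intro core B W V _ _ _ M hM h3 b i
  classical
  have main := H331.induct (fun {B W} _ _ X => B893.nf X = Nat.card B + 2)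
    (fun X S T C hp h3 _ _ => (H328.nf_sides C hp (nf_le' (H331.C3_X1 h3 C))
      (nf_le' (H331.C3_X2 h3 C))).1)
    (fun X S T C hp h3 _ _ => (H328.nf_sides C hp (nf_le' (H331.C3_X1 h3 C))
      (nf_le' (H331.C3_X2 h3 C))).2)
    (by
      intro B W _ _ X hp h3 h4
      have _ := Fintype.ofFinite B
      have _ := Fintype.ofFinite W
      obtain ⟨V, _, _, ⟨L⟩⟩ := Final_exists_lab X
      have hS : (ofLab L).Sph := by
        refine ⟨conn_of_web (ofLab L) h3, ?_⟩
        rw [B893.nf_eq L, Nat.card_eq_fintype_card, Nat.card_eq_fintype_card] at hp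
        exact hp
      have := core B W V (ofLab L) hS (c3_of_web _ h3) (c4_of_web _ h4)
      intro b i
      obtain ⟨m, hm, hmi⟩ := this b i
      refine ⟨m, hmi, hm.1, ?_⟩
      intro P Q hPQ hP a
      exact hm.2 {a | P a} {w | Q w} hPQ hP a)
    (toWeb M) (by
      show B893.nf (toWeb M) = Nat.card B + 2
      rw [B893.nf_eq (toLab M), Nat.card_eq_fintype_card, Nat.card_eq_fintype_card]
      exact hM.card) (c3_to_web M h3) b i
  obtain ⟨m, hm1, hm2, hm3⟩ := main
  exact ⟨m, ⟨hm2, fun S T h hS b => hm3 (fun b => b ∈ S) (fun w => w ∈ T) h hS b⟩, hm1⟩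

end Vale.Agent.P039.H912
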